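import Mathlib

/-!
# Expansions at infinity to second order
-/

namespace Vale.Agent.P275.R2.H894

open Filter Topology

/-- `f = a q ^ A + b q ^ (A - 1) + o(q ^ (A - 1))` -/
def Ex (f : ℕ → ℂ) (A : ℕ) (a b : ℂ) : Prop :=
  Tendsto (fun q : ℕ => (f q / (q : ℂ) ^ A - a) * q) atTop (𝓝 b)

theorem tendsto_inv_nat : Tendsto (fun q : ℕ => ((q : ℂ))⁻¹) atTop (𝓝 0) :=
  tendsto_inv_atTop_nhds_zero_nat (𝕜 := ℂ)

theorem ev_ne : ∀ᶠ q : ℕ in atTop, (q : ℂ) ≠ 0 := by
  filter_upwards [eventually_ge_atTop 1] with q hq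
  exact_mod_cast (by omega : q ≠ 0)

namespace Ex

variable {f g : ℕ → ℂ} {A B : ℕ} {a b c d : ℂ}

theorem congr' (h : Ex f A a b) (hfg : ∀ᶠ q : ℕ in atTop, f q = g q) : Ex g A a b := by
  unfold Ex at *
  apply h.congr'
  filter_upwards [hfg] with q hq
  rw [hq]

theorem congr (h : Ex f A a b) (hfg : ∀ q, f q = g q) : Ex g A a b :=
  h.congr' (Eventually.of_forall hfg)

/-- the leading coefficient -/
theorem lead (h : Ex f A a b) : Tendsto (fun q : ℕ => f q / (q : ℂ) ^ A) atTop (𝓝 a) := by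
  have h1 := h.mul tendsto_inv_nat
  rw [mul_zero] at h1
  have h2 : Tendsto (fun q : ℕ => f q / (q : ℂ) ^ A - a) atTop (𝓝 0) := by
    apply h1.congr'
    filter_upwards [ev_ne] with q hq
    rw [mul_assoc, mul_inv_cancel₀ hq, mul_one]
  simpa using h2.add_const a

theorem add (hf : Ex f A a b) (hg : Ex g A c d) : Ex (fun q => f q + g q) A (a + c) (b + d) := by
  have h := Tendsto.add hf hg
  apply h.congr
  intro q
  ring

theorem const_mul (hf : Ex f A a b) (r : ℂ) : Ex (fun q => r * f q) A (r * a) (r * b) := by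
  have h := Tendsto.const_mul r hf
  apply h.congr
  intro q
  ring

theorem mul (hf : Ex f A a b) (hg : Ex g B c d) :
    Ex (fun q => f q * g q) (A + B) (a * c) (b * c + a * d) := by
  have h := (Tendsto.mul hf hg.lead).add (Tendsto.const_mul a hg)
  apply h.congr
  intro q
  rw [pow_add]
  ring

theorem div (hf : Ex f (A + B) a b) (hg : Ex g B 1 d) :
    Ex (fun q => f q / g q) A a (b - a * d) := by
  have h1 := hg.lead
  have h := ((Tendsto.sub hf (Tendsto.const_mul a hg)).div h1 one_ne_zero)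
  rw [div_one] at h
  apply h.congr'
  have h2 : ∀ᶠ q : ℕ in atTop, g q / (q : ℂ) ^ B ≠ 0 := h1.eventually_ne one_ne_zero
  filter_upwards [ev_ne, h2] with q hq hgq
  have h3 : g q ≠ 0 := fun h0 => hgq (by rw [h0, zero_div])
  simp only [Pi.div_apply]
  rw [pow_add]
  field_simp
  ring

theorem low (hf : Ex f A a b) (hAB : A + 2 ≤ B) : Ex f B 0 0 := by
  obtain ⟨k, rfl⟩ := Nat.exists_eq_add_of_le hAB
  have h := (hf.lead.mul (tendsto_inv_nat.mul (tendsto_inv_nat.pow k |>.mul_const (1 : ℂ))))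
  have h0 : Tendsto (fun q : ℕ => f q / (q : ℂ) ^ A * (((q : ℂ))⁻¹ * (((q : ℂ))⁻¹ ^ k * 1)))
      atTop (𝓝 0) := by
    have : a * (0 * ((0 : ℂ) ^ k * 1)) = 0 := by ring
    rw [this] at h
    exact h
  apply h0.congr'
  filter_upwards [ev_ne] with q hq
  have h1 : ((q : ℂ))⁻¹ ^ k = ((q : ℂ) ^ k)⁻¹ := inv_pow _ _
  rw [pow_add, pow_add, h1]
  field_simp
  ring

theorem qpow (A : ℕ) : Ex (fun q => (q : ℂ) ^ A) A 1 0 := by
  unfold Ex
  apply tendsto_const_nhds.congr'
  filter_upwards [ev_ne] with q hq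
  rw [div_self (pow_ne_zero _ hq), sub_self, zero_mul]

theorem one : Ex (fun _ => 1) 0 1 0 := by
  simpa using qpow 0

theorem const (r : ℂ) : Ex (fun _ => r) 0 r 0 := by
  have := one.const_mul r
  simpa using this

/-- `q ^ A - q ^ B` with `B < A` -/
theorem qsub (hAB : B < A) :
    Ex (fun q => (q : ℂ) ^ A - (q : ℂ) ^ B) A 1 (if A = B + 1 then -1 else 0) := by
  obtain ⟨k, rfl⟩ := Nat.exists_eq_add_of_lt hAB
  unfold Ex
  rcases Nat.eq_zero_or_pos k with hk | hk
  · subst hk
    rw [if_pos (by ring)]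
    apply tendsto_const_nhds.congr'
    filter_upwards [ev_ne] with q hq
    rw [add_zero, pow_succ]
    field_simp
    ring
  · rw [if_neg (by omega)]
    have h : Tendsto (fun q : ℕ => -(((q : ℂ))⁻¹ ^ k)) atTop (𝓝 0) := by
      have := (tendsto_inv_nat.pow k).neg
      rwa [zero_pow hk.ne', neg_zero] at this
    apply h.congr'
    filter_upwards [ev_ne] with q hq
    have h1 : ((q : ℂ))⁻¹ ^ k = ((q : ℂ) ^ k)⁻¹ := inv_pow _ _
    rw [pow_succ, pow_add, h1]
    field_simp
    ring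

theorem pow (hf : Ex f A 1 b) (k : ℕ) : Ex (fun q => f q ^ k) (A * k) 1 (k * b) := by
  induction k with
  | zero => simpa using one
  | succ k ih =>
    have h := ih.mul hf
    have h2 : Ex (fun q => f q ^ k * f q) (A * (k + 1)) 1 ((k + 1 : ℕ) * b) := by
      have e : A * (k + 1) = A * k + A := by ring
      rw [e]
      convert h using 1 <;> push_cast <;> ring
    exact h2.congr fun q => by rw [pow_succ]

theorem sum {ι : Type*} (s : Finset ι) {F : ι → ℕ → ℂ} {α β : ι → ℂ}
    (h : ∀ i ∈ s, Ex (F i) A (α i) (β i)) :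
    Ex (fun q => ∑ i ∈ s, F i q) A (∑ i ∈ s, α i) (∑ i ∈ s, β i) := by
  classical
  induction s using Finset.induction_on with
  | empty =>
    simp only [Finset.sum_empty]
    unfold Ex
    simp
  | insert i s hi ih =>
    simp only [Finset.sum_insert hi]
    exact (h i (Finset.mem_insert_self _ _)).add
      (ih fun j hj => h j (Finset.mem_insert_of_mem hj))

theorem prod {ι : Type*} (s : Finset ι) {F : ι → ℕ → ℂ} {E : ι → ℕ} {β : ι → ℂ}
    (h : ∀ i ∈ s, Ex (F i) (E i) 1 (β i)) :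
    Ex (fun q => ∏ i ∈ s, F i q) (∑ i ∈ s, E i) 1 (∑ i ∈ s, β i) := by
  classical
  induction s using Finset.induction_on with
  | empty => simpa using one
  | insert i s hi ih =>
    simp only [Finset.prod_insert hi, Finset.sum_insert hi]
    have := (h i (Finset.mem_insert_self _ _)).mul
      (ih fun j hj => h j (Finset.mem_insert_of_mem hj))
    convert this using 1 <;> ring

end Ex

end Vale.Agent.P275.R2.H894
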