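import Vale.Agent.P275.H341.Rows4
import Vale.Agent.P275.R2.H894.Ex

/-!
# Rows
-/

namespace Vale.Agent.P275.R2.H894

open Filter Topology Vale.Agent.P275.H341
open scoped BigOperators

/-- Row HK1: the order of a hook product -/
def RowHK1 : Prop := ∀ (d k : ℕ) (lam : Fin k → ℕ), 1 ≤ d → lam ∈ Pt k →
  ∃ b : ℂ, Ex (fun q => hk ((q : ℂ) ^ d) lam) (d * ∑ i, lam i * (lam i + 1) / 2) 1 b

/-- Row HK2: the hook product of the partition with one part -/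
def RowHK2 : Prop := ∀ (d k : ℕ) (lam : Fin (k + 1) → ℕ), 1 ≤ d → lam 0 = k + 1 →
  (∀ i, i ≠ 0 → lam i = 0) →
  Ex (fun q => hk ((q : ℂ) ^ d) lam) (d * ((k + 1) * (k + 2) / 2)) 1 (if d = 1 then -1 else 0)

/-- Row OM: the generating coefficients -/
def RowOM : Prop := ∀ (d e g k : ℕ), 1 ≤ d → 1 ≤ e → 2 ≤ g →
  Ex (fun q => om (powMonoidHom (2 * g - 2)) q d e k) (d * e * (2 * g - 2) * (k * (k + 1) / 2)) 1
    (if k = 0 then 0 else if d = 1 then -(((2 * g - 2 : ℕ) : ℂ) * e) else 0)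

/-- Row LD: the logarithmic derivative -/
def RowLD : Prop := ∀ (a : ℕ → ℕ → ℂ) (c : ℕ) (β : ℂ), 2 ≤ c → (∀ q, a q 0 = 1) →
  (∀ k, Ex (fun q => a q k) (c * (k * (k + 1) / 2)) 1 (if k = 0 then 0 else β)) →
  ∀ k, 1 ≤ k → Ex (fun q => ld (a q) k) (c * (k * (k + 1) / 2)) k (k * β)

/-- Row EG: the point count to second order -/
def RowEG : Prop := ∀ (n m g : ℕ), 1 ≤ n → m ∣ n → 2 ≤ m → 2 ≤ g →
  Ex (fun q => eG n m g q) ((g - 1) * (n * (n + n / m))) 0 (-((2 * g - 2 : ℕ) : ℂ))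

end Vale.Agent.P275.R2.H894
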